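-- Frozen copy of Vale/Agent/H22/EgyPotential.lean (written by helper22); kept under H73 so that the P012 hand-in
-- A_LogLogTimesLogLogLog has an import closure that no later edit elsewhere can change.
import Mathlib

/-!
# Greedy choice of a block of primes with small multiplicative potential

Support lemma for P012 (board row 131, sub-lemma POTENTIAL).
-/

namespace Vale.Agent.H73.D22

theorem pow_succ_mul_sub_le (n : ℕ) : ∀ j : ℕ, j ≤ n → (n + 1) ^ j * (n - j) ≤ n ^ (j + 1) := by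
  intro j
  induction j with
  | zero => intro _; simp
  | succ j ih =>
    intro hj
    have h1 := ih (by omega)
    have h2 : (n + 1) * (n - (j + 1)) ≤ n * (n - j) := by
      obtain ⟨d, rfl⟩ : ∃ d, n = j + 1 + d := ⟨n - (j + 1), by omega⟩
      have e1 : j + 1 + d - (j + 1) = d := by omega
      have e2 : j + 1 + d - j = d + 1 := by omega
      rw [e1, e2]; nlinarith
    calc (n + 1) ^ (j + 1) * (n - (j + 1)) = (n + 1) ^ j * ((n + 1) * (n - (j + 1))) := by ring
      _ ≤ (n + 1) ^ j * (n * (n - j)) := Nat.mul_le_mul_left _ h2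
      _ = n * ((n + 1) ^ j * (n - j)) := by ring
      _ ≤ n * n ^ (j + 1) := Nat.mul_le_mul_left _ h1
      _ = n ^ (j + 1 + 1) := by ring

theorem two_mul_add_one_pow_le (k : ℕ) (hk : 1 ≤ k) : (2 * k + 1) ^ k ≤ 2 * (2 * k) ^ k := by
  have h := pow_succ_mul_sub_le (2 * k) k (by omega)
  have e : 2 * k - k = k := by omega
  rw [e] at h
  have h2 : (2 * k + 1) ^ k * k ≤ (2 * (2 * k) ^ k) * k := by
    calc (2 * k + 1) ^ k * k ≤ (2 * k) ^ (k + 1) := h
      _ = (2 * (2 * k) ^ k) * k := by ring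
  exact Nat.le_of_mul_le_mul_right h2 (by omega)

/-- Greedy choice of a block `L` of `k` elements of `PP` for a general weight `w`: if the total
weight of every subset `S ⊆ PP` is at most `|S| + c l`, and `PP` is large, the potential
`∑ i, ∏ p ∈ L, w i p` is at most `2 |I|`. -/
theorem exists_block_general {ι : Type*} (I : Finset ι) (PP : Finset ℕ) (w : ι → ℕ → ℕ)
    (k c l : ℕ) (hw : ∀ i ∈ I, ∀ S ⊆ PP, ∑ p ∈ S, w i p ≤ S.card + c * l)
    (hcard : 2 * k * c * l + k ≤ PP.card) :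
    ∃ L ⊆ PP, L.card = k ∧ ∑ i ∈ I, ∏ p ∈ L, w i p ≤ 2 * I.card := by
  classical
  have key : ∀ j : ℕ, j ≤ k → ∃ L ⊆ PP, L.card = j ∧
      (∑ i ∈ I, ∏ p ∈ L, w i p) * (2 * k) ^ j ≤ I.card * (2 * k + 1) ^ j := by
    intro j
    induction j with
    | zero =>
      intro _
      exact ⟨∅, Finset.empty_subset _, rfl, by simp⟩
    | succ j ih =>
      intro hj
      obtain ⟨L, hL, hLc, hPot⟩ := ih (by omega)
      have hm : (PP \ L).card = PP.card - j := by rw [Finset.card_sdiff_of_subset hL, hLc]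
      obtain ⟨m, hmdef⟩ : ∃ m, m = (PP \ L).card := ⟨_, rfl⟩
      have hm1 : 2 * k * c * l + 1 ≤ m := by omega
      have htot : ∑ p ∈ PP \ L, ∑ i ∈ I, ∏ q ∈ insert p L, w i q
          ≤ (∑ i ∈ I, ∏ q ∈ L, w i q) * (m + c * l) := by
        rw [Finset.sum_comm, Finset.sum_mul]
        apply Finset.sum_le_sum
        intro i hi
        have h1 : ∀ p ∈ PP \ L, ∏ q ∈ insert p L, w i q = w i p * ∏ q ∈ L, w i q := by
          intro p hp
          rw [Finset.prod_insert (Finset.mem_sdiff.1 hp).2]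
        rw [Finset.sum_congr rfl h1, ← Finset.sum_mul, mul_comm, hmdef]
        exact Nat.mul_le_mul_left _ (hw i hi _ Finset.sdiff_subset)
      have hne : (PP \ L).Nonempty := by rw [← Finset.card_pos]; omega
      obtain ⟨p, hp, hpb⟩ : ∃ p ∈ PP \ L, m * (∑ i ∈ I, ∏ q ∈ insert p L, w i q)
          ≤ (∑ i ∈ I, ∏ q ∈ L, w i q) * (m + c * l) := by
        by_contra hcon
        push Not at hcon
        have h1 : ∑ p ∈ PP \ L, (∑ i ∈ I, ∏ q ∈ L, w i q) * (m + c * l)
            < ∑ p ∈ PP \ L, m * (∑ i ∈ I, ∏ q ∈ insert p L, w i q) :=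
          Finset.sum_lt_sum_of_nonempty hne hcon
        rw [Finset.sum_const, smul_eq_mul, ← hmdef, ← Finset.mul_sum] at h1
        have h2 := Nat.mul_le_mul_left m htot
        omega
      refine ⟨insert p L, ?_, ?_, ?_⟩
      · exact Finset.insert_subset (Finset.mem_sdiff.1 hp).1 hL
      · rw [Finset.card_insert_of_notMem (Finset.mem_sdiff.1 hp).2, hLc]
      · obtain ⟨A, hA⟩ : ∃ A, A = ∑ i ∈ I, ∏ q ∈ insert p L, w i q := ⟨_, rfl⟩
        obtain ⟨B, hB⟩ : ∃ B, B = ∑ i ∈ I, ∏ q ∈ L, w i q := ⟨_, rfl⟩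
        rw [← hA] at hpb ⊢
        rw [← hB] at hpb hPot
        have h2 : 2 * k * A ≤ (2 * k + 1) * B := by
          have h3 : m * (2 * k * A) ≤ m * ((2 * k + 1) * B) := by
            calc m * (2 * k * A) = 2 * k * (m * A) := by ring
              _ ≤ 2 * k * (B * (m + c * l)) := Nat.mul_le_mul_left _ hpb
              _ = B * (2 * k * m + 2 * k * c * l) := by ring
              _ ≤ B * (2 * k * m + m) := Nat.mul_le_mul_left _ (by omega)
              _ = m * ((2 * k + 1) * B) := by ring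
          exact Nat.le_of_mul_le_mul_left h3 (by omega)
        calc A * (2 * k) ^ (j + 1) = (2 * k * A) * (2 * k) ^ j := by ring
          _ ≤ ((2 * k + 1) * B) * (2 * k) ^ j := Nat.mul_le_mul_right _ h2
          _ = (2 * k + 1) * (B * (2 * k) ^ j) := by ring
          _ ≤ (2 * k + 1) * (I.card * (2 * k + 1) ^ j) := Nat.mul_le_mul_left _ hPot
          _ = I.card * (2 * k + 1) ^ (j + 1) := by ring
  obtain ⟨L, hL, hLc, hPot⟩ := key k le_rfl
  refine ⟨L, hL, hLc, ?_⟩
  rcases Nat.eq_zero_or_pos k with hk0 | hkpos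
  · subst hk0
    simp only [mul_zero, pow_zero, mul_one, zero_add] at hPot
    omega
  · have h1 := two_mul_add_one_pow_le k hkpos
    have h2 : (∑ i ∈ I, ∏ p ∈ L, w i p) * (2 * k) ^ k ≤ (2 * I.card) * (2 * k) ^ k := by
      calc (∑ i ∈ I, ∏ p ∈ L, w i p) * (2 * k) ^ k ≤ I.card * (2 * k + 1) ^ k := hPot
        _ ≤ I.card * (2 * (2 * k) ^ k) := Nat.mul_le_mul_left _ h1
        _ = (2 * I.card) * (2 * k) ^ k := by ring
    exact Nat.le_of_mul_le_mul_right h2 (by positivity)

/-- **POTENTIAL** (P012, board row 131): greedy choice of a block of `k` primes. -/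
theorem exists_prime_block {ι : Type*} (I : Finset ι) (n : ι → ℤ) (PP : Finset ℕ) (k c l : ℕ)
    (hl : ∀ i ∈ I, (PP.filter (fun p : ℕ => (p : ℤ) ∣ n i)).card ≤ l)
    (hcard : 2 * k * c * l + k ≤ PP.card) :
    ∃ L ⊆ PP, L.card = k ∧
      ∑ i ∈ I, ∏ p ∈ L, (if (p : ℤ) ∣ n i then c + 1 else 1) ≤ 2 * I.card := by
  refine exists_block_general I PP (fun i p => if (p : ℤ) ∣ n i then c + 1 else 1) k c l ?_ hcard
  intro i hi S hS
  have h1 : ∀ p : ℕ, (if (p : ℤ) ∣ n i then c + 1 else 1)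
      = 1 + (if (p : ℤ) ∣ n i then c else 0) := by
    intro p; split_ifs <;> ring
  simp only [h1]
  rw [Finset.sum_add_distrib, Finset.sum_const, smul_eq_mul, mul_one]
  have h2 : ∑ p ∈ S, (if (p : ℤ) ∣ n i then c else 0)
      = (S.filter (fun p : ℕ => (p : ℤ) ∣ n i)).card * c := by
    rw [← Finset.sum_filter, Finset.sum_const, smul_eq_mul]
  rw [h2]
  have h3 : (S.filter (fun p : ℕ => (p : ℤ) ∣ n i)).card ≤ l :=
    (Finset.card_le_card (Finset.filter_subset_filter _ hS)).trans (hl i hi)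
  nlinarith

end Vale.Agent.H73.D22
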