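-- Frozen copy of Vale/Agent/H28/EgyFinalStep.lean (written by helper28); kept under H73 so that the P012 hand-in
-- A_LogLogTimesLogLogLog has an import closure that no later edit elsewhere can change.
import Mathlib
import Vale.Agent.H73.EgyDeps.H97EgyGreedy

/-!
# Egyptian fractions from range-restricted divisor sums

`egypt_of_rep`: if every `y < Z` is a sum of at most `T` distinct divisors of `M = G * Z`,
then every `a / b` with `0 < a < b`, `G * b ≤ 2 ^ 2 ^ k` and `(G * b) ^ 2 ≤ Z` is a sum of at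
most `k + 2 + 2 * T` distinct unit fractions with denominators `≥ 2`.  The top scale of `M`
is avoided by first running the greedy algorithm (`Vale.Agent.H73.D97.greedy_reduce`).
-/

namespace Vale.Agent.H73.D28

open Finset

theorem egypt_of_rep {M Z G T a b k : ℕ}
    (hrep : ∀ y < Z, ∃ D : Finset ℕ, D ⊆ M.divisors ∧ D.card ≤ T ∧ ∑ d ∈ D, d = y)
    (hM : M = G * Z) (hG : 2 ≤ G) (ha : 0 < a) (hab : a < b)
    (hk : G * b ≤ 2 ^ 2 ^ k) (hZ : (G * b) ^ 2 ≤ Z) :
    ∃ S : Finset ℕ, (∀ n ∈ S, 2 ≤ n) ∧ S.card ≤ k + 2 + 2 * T ∧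
      ∑ n ∈ S, (1 : ℚ) / (n : ℚ) = (a : ℚ) / (b : ℚ) := by
  have hb : 0 < b := by omega
  have hb2 : 2 ≤ b := by omega
  have hWpos : 0 < G * b := Nat.mul_pos (by omega) hb
  have hbW : b < G * b := by
    calc b = 1 * b := (one_mul b).symm
      _ < G * b := Nat.mul_lt_mul_of_pos_right (by omega) hb
  obtain ⟨S0, a', b', hS0, hq0, ha', hb'pos, hor, hb'W, hS0c⟩ :=
    Vale.Agent.H73.D97.greedy_reduce a b (G * b) k ha hab hbW hk
  by_cases ha'0 : a' = 0
  · refine ⟨S0, fun n hn => (hS0 n hn).1, by omega, ?_⟩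
    rw [hq0, ha'0]
    simp
  have ha'pos : 0 < a' := Nat.pos_of_ne_zero ha'0
  have hWb' : G * b ≤ b' := by
    rcases hor with h | h
    · exact absurd h ha'0
    · exact h
  have hb'Z : b' < Z := lt_of_lt_of_le hb'W hZ
  have hZpos : 0 < Z := by omega
  have hMpos : 0 < M := by
    rw [hM]
    exact Nat.mul_pos (by omega) hZpos
  have ha'b : a' < b := by omega
  -- a' * G < b'
  have hGa' : a' * G < b' := by
    calc a' * G < b * G := Nat.mul_lt_mul_of_pos_right ha'b (by omega)
      _ = G * b := mul_comm b G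
      _ ≤ b' := hWb'
  have hqr : a' * M = b' * (a' * M / b') + a' * M % b' := (Nat.div_add_mod _ _).symm
  have hrb : a' * M % b' < b' := Nat.mod_lt _ hb'pos
  have hqZ : a' * M / b' < Z := by
    apply Nat.div_lt_of_lt_mul
    calc a' * M = a' * G * Z := by rw [hM, mul_assoc]
      _ < b' * Z := Nat.mul_lt_mul_of_pos_right hGa' hZpos
  have hqle : (a' * M / b') * b' ≤ a' * M := Nat.div_mul_le_self _ _
  obtain ⟨D2, hD2, hD2c, hD2s⟩ := hrep (a' * M / b') hqZ
  obtain ⟨D1, hD1, hD1c, hD1s⟩ := hrep (a' * M % b') (lt_trans hrb hb'Z)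
  have hdiv2 : ∀ d ∈ D2, d ∣ M ∧ 0 < d ∧ d ≤ a' * M / b' := by
    intro d hd
    have h1 := hD2 hd
    rw [Nat.mem_divisors] at h1
    have hdle : d ≤ a' * M / b' := by
      rw [← hD2s]
      exact Finset.single_le_sum (f := fun x => x) (fun _ _ => Nat.zero_le _) hd
    exact ⟨h1.1, Nat.pos_of_dvd_of_pos h1.1 hMpos, hdle⟩
  have hdiv1 : ∀ d ∈ D1, d ∣ M ∧ 0 < d ∧ d < b' := by
    intro d hd
    have h1 := hD1 hd
    rw [Nat.mem_divisors] at h1
    have hdle : d ≤ a' * M % b' := by
      rw [← hD1s]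
      exact Finset.single_le_sum (f := fun x => x) (fun _ _ => Nat.zero_le _) hd
    exact ⟨h1.1, Nat.pos_of_dvd_of_pos h1.1 hMpos, by omega⟩
  have hinj2 : Set.InjOn (fun d => M / d) (D2 : Set ℕ) := by
    intro x hx y hy hxy
    have hx' := hdiv2 x hx
    have hy' := hdiv2 y hy
    have e1 : M / (M / x) = x := Nat.div_div_self hx'.1 hMpos.ne'
    have e2 : M / (M / y) = y := Nat.div_div_self hy'.1 hMpos.ne'
    have hxy' : M / x = M / y := hxy
    rw [← e1, ← e2, hxy']
  have hinj1 : Set.InjOn (fun d => b' * (M / d)) (D1 : Set ℕ) := by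
    intro x hx y hy hxy
    have hx' := hdiv1 x hx
    have hy' := hdiv1 y hy
    have hxy' : M / x = M / y := Nat.eq_of_mul_eq_mul_left hb'pos hxy
    have e1 : M / (M / x) = x := Nat.div_div_self hx'.1 hMpos.ne'
    have e2 : M / (M / y) = y := Nat.div_div_self hy'.1 hMpos.ne'
    rw [← e1, ← e2, hxy']
  -- (i) the two divisor families are disjoint
  have hdisj21 : Disjoint (D2.image (fun d => M / d)) (D1.image (fun d => b' * (M / d))) := by
    rw [Finset.disjoint_left]
    intro n hn1 hn2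
    rw [Finset.mem_image] at hn1 hn2
    obtain ⟨d, hd, rfl⟩ := hn1
    obtain ⟨e, he, heq⟩ := hn2
    have hd' := hdiv2 d hd
    have he' := hdiv1 e he
    have h1 : d * (M / d) = M := Nat.mul_div_cancel' hd'.1
    have h2 : e * (M / e) = M := Nat.mul_div_cancel' he'.1
    have hpos : 0 < M / e := Nat.div_pos (Nat.le_of_dvd hMpos he'.1) he'.2.1
    have h3 : d * b' * (M / e) = e * (M / e) := by
      rw [h2, mul_assoc, heq, h1]
    have h4 : d * b' = e := Nat.eq_of_mul_eq_mul_right hpos h3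
    have h5 : b' ≤ d * b' := Nat.le_mul_of_pos_left b' hd'.2.1
    omega
  -- (ii) greedy denominators are not of the form `M / d`
  have hdisj02 : Disjoint S0 (D2.image (fun d => M / d)) := by
    rw [Finset.disjoint_left]
    intro n hn0 hn2
    rw [Finset.mem_image] at hn2
    obtain ⟨d, hd, hdn⟩ := hn2
    have hd' := hdiv2 d hd
    obtain ⟨hn2', hnb⟩ := hS0 n hn0
    have h1 : d * (M / d) = M := Nat.mul_div_cancel' hd'.1
    have hM' : d * n = M := by rw [← hdn]; exact h1
    -- d * b' ≤ a' * M = a' * (d * n)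
    have h2 : d * b' ≤ a' * M :=
      le_trans (Nat.mul_le_mul_right b' hd'.2.2) hqle
    have h3 : d * b' ≤ d * (a' * n) := by
      calc d * b' ≤ a' * M := h2
        _ = a' * (d * n) := by rw [hM']
        _ = d * (a' * n) := by ring
    have h4 : b' ≤ a' * n := Nat.le_of_mul_le_mul_left h3 hd'.2.1
    have h5 : a' * n < b * n := Nat.mul_lt_mul_of_pos_right ha'b (by omega)
    have h6 : b * n = n * b := mul_comm b n
    omega
  -- (iii) greedy denominators are smaller than `b' * (M / e)`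
  have hdisj01 : Disjoint S0 (D1.image (fun d => b' * (M / d))) := by
    rw [Finset.disjoint_left]
    intro n hn0 hn1
    rw [Finset.mem_image] at hn1
    obtain ⟨e, he, hen⟩ := hn1
    have he' := hdiv1 e he
    obtain ⟨hn2', hnb⟩ := hS0 n hn0
    have hpos : 0 < M / e := Nat.div_pos (Nat.le_of_dvd hMpos he'.1) he'.2.1
    have h1 : b' ≤ b' * (M / e) := Nat.le_mul_of_pos_right b' hpos
    have h2 : n * 2 ≤ n * b := Nat.mul_le_mul_left n hb2
    omega
  have hdisj0 : Disjoint S0 (D2.image (fun d => M / d) ∪ D1.image (fun d => b' * (M / d))) :=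
    Finset.disjoint_union_right.mpr ⟨hdisj02, hdisj01⟩
  refine ⟨S0 ∪ (D2.image (fun d => M / d) ∪ D1.image (fun d => b' * (M / d))), ?_, ?_, ?_⟩
  · intro n hn
    rw [Finset.mem_union, Finset.mem_union, Finset.mem_image, Finset.mem_image] at hn
    rcases hn with hn | ⟨d, hd, rfl⟩ | ⟨d, hd, rfl⟩
    · exact (hS0 n hn).1
    · have hd' := hdiv2 d hd
      by_contra hlt
      have h1 : d * (M / d) = M := Nat.mul_div_cancel' hd'.1
      have h2 : M / d ≤ 1 := by omega
      have h3 : d * (M / d) ≤ d * 1 := Nat.mul_le_mul_left d h2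
      have hMd : M ≤ d := by omega
      -- then M * b' ≤ d * b' ≤ a' * M, so b' ≤ a'
      have h4 : M * b' ≤ M * a' := by
        calc M * b' ≤ d * b' := Nat.mul_le_mul_right b' hMd
          _ ≤ (a' * M / b') * b' := Nat.mul_le_mul_right b' hd'.2.2
          _ ≤ a' * M := hqle
          _ = M * a' := mul_comm a' M
      have h5 : b' ≤ a' := Nat.le_of_mul_le_mul_left h4 hMpos
      omega
    · have hd' := hdiv1 d hd
      have hpos : 0 < M / d := Nat.div_pos (Nat.le_of_dvd hMpos hd'.1) hd'.2.1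
      have h1 : b' ≤ b' * (M / d) := Nat.le_mul_of_pos_right b' hpos
      omega
  · calc (S0 ∪ (D2.image (fun d => M / d) ∪ D1.image (fun d => b' * (M / d)))).card
        ≤ S0.card + (D2.image (fun d => M / d) ∪ D1.image (fun d => b' * (M / d))).card :=
          Finset.card_union_le _ _
      _ ≤ S0.card + ((D2.image (fun d => M / d)).card +
            (D1.image (fun d => b' * (M / d))).card) :=
          Nat.add_le_add_left (Finset.card_union_le _ _) _
      _ ≤ S0.card + (D2.card + D1.card) :=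
          Nat.add_le_add_left (Nat.add_le_add Finset.card_image_le Finset.card_image_le) _
      _ ≤ k + 2 + 2 * T := by omega
  · rw [Finset.sum_union hdisj0, Finset.sum_union hdisj21, Finset.sum_image hinj2,
      Finset.sum_image hinj1]
    have hMq : (M : ℚ) ≠ 0 := by exact_mod_cast hMpos.ne'
    have hb'q : (b' : ℚ) ≠ 0 := by exact_mod_cast hb'pos.ne'
    have s2 : ∑ d ∈ D2, (1 : ℚ) / ((M / d : ℕ) : ℚ) = ∑ d ∈ D2, (d : ℚ) / M := by
      apply Finset.sum_congr rfl
      intro d hd
      have hd' := hdiv2 d hd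
      have hdq : (d : ℚ) ≠ 0 := by exact_mod_cast hd'.2.1.ne'
      rw [Nat.cast_div hd'.1 hdq]
      field_simp
    have s1 : ∑ d ∈ D1, (1 : ℚ) / ((b' * (M / d) : ℕ) : ℚ) =
        ∑ d ∈ D1, (d : ℚ) / (b' * M) := by
      apply Finset.sum_congr rfl
      intro d hd
      have hd' := hdiv1 d hd
      have hdq : (d : ℚ) ≠ 0 := by exact_mod_cast hd'.2.1.ne'
      rw [Nat.cast_mul, Nat.cast_div hd'.1 hdq]
      field_simp
    rw [s2, s1, ← Finset.sum_div, ← Finset.sum_div, ← Nat.cast_sum, ← Nat.cast_sum, hD2s, hD1s,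
      hq0]
    have hqr' : (a' : ℚ) * M = b' * ((a' * M / b' : ℕ) : ℚ) + ((a' * M % b' : ℕ) : ℚ) := by
      exact_mod_cast hqr
    have key : ((a' * M / b' : ℕ) : ℚ) / M + ((a' * M % b' : ℕ) : ℚ) / (b' * M) =
        (a' : ℚ) / b' := by
      field_simp
      linarith
    rw [add_right_inj]
    exact key

end Vale.Agent.H73.D28
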