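-- Frozen copy of Vale/Agent/H32/EgyNumerics.lean (written by helper32); kept under H73 so that the P012 hand-in
-- A_LogLogTimesLogLogLog has an import closure that no later edit elsewhere can change.
import Mathlib

/-!
Natural-number arithmetic for the Egyptian fraction bound (support lemmas for P012).
-/

namespace Vale.Agent.H73.D32

/-- `n ^ r ≤ r ^ r * C(n, r)` for `r ≤ n`. -/
theorem pow_le_pow_mul_choose : ∀ (r n : ℕ), r ≤ n → n ^ r ≤ r ^ r * n.choose r
  | 0, n, _ => by simp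
  | r + 1, 0, h => by omega
  | r + 1, n + 1, h => by
    have hrn : r ≤ n := Nat.le_of_succ_le_succ h
    have ih := pow_le_pow_mul_choose r n hrn
    have key : (n + 1) * n.choose r = (n + 1).choose (r + 1) * (r + 1) :=
      Nat.add_one_mul_choose_eq n r
    have h1 : (n + 1) ^ r ≤ (r + 1) ^ r * n.choose r := by
      rcases Nat.eq_zero_or_pos r with rfl | hr
      · simp
      · have h0 : (n + 1) * r ≤ (r + 1) * n := by nlinarith
        have h2 : ((n + 1) * r) ^ r ≤ ((r + 1) * n) ^ r := Nat.pow_le_pow_left h0 r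
        rw [mul_pow, mul_pow] at h2
        have h3 : (n + 1) ^ r * r ^ r ≤ (r + 1) ^ r * (r ^ r * n.choose r) :=
          h2.trans (Nat.mul_le_mul_left _ ih)
        have h4 : (n + 1) ^ r * r ^ r ≤ ((r + 1) ^ r * n.choose r) * r ^ r := by
          calc (n + 1) ^ r * r ^ r ≤ (r + 1) ^ r * (r ^ r * n.choose r) := h3
            _ = ((r + 1) ^ r * n.choose r) * r ^ r := by ring
        exact Nat.le_of_mul_le_mul_right h4 (pow_pos hr r)
    calc (n + 1) ^ (r + 1) = (n + 1) ^ r * (n + 1) := pow_succ _ _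
      _ ≤ (r + 1) ^ r * n.choose r * (n + 1) := Nat.mul_le_mul_right _ h1
      _ = (r + 1) ^ r * ((n + 1) * n.choose r) := by ring
      _ = (r + 1) ^ r * ((n + 1).choose (r + 1) * (r + 1)) := by rw [key]
      _ = (r + 1) ^ (r + 1) * (n + 1).choose (r + 1) := by ring

theorem two_pow_le_choose (w i : ℕ) (hi : i ≤ w) :
    2 ^ (i * 2 ^ (w - i)) ≤ (2 ^ w).choose (2 ^ (w - i)) := by
  obtain ⟨r, hr⟩ : ∃ r, r = 2 ^ (w - i) := ⟨_, rfl⟩
  rw [← hr]
  have hrn : r ≤ 2 ^ w := by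
    rw [hr]
    exact Nat.pow_le_pow_right (by norm_num) (Nat.sub_le w i)
  have h := pow_le_pow_mul_choose r (2 ^ w) hrn
  have e1 : (2 ^ w) ^ r = 2 ^ ((w - i) * r) * 2 ^ (i * r) := by
    rw [← pow_mul, ← pow_add, ← Nat.add_mul, Nat.sub_add_cancel hi]
  have e2 : r ^ r = 2 ^ ((w - i) * r) := by
    rw [hr, ← pow_mul]
  rw [e1, e2] at h
  exact Nat.le_of_mul_le_mul_left h (by positivity)

theorem mul_le_two_pow_aux : ∀ n : ℕ, 11 ≤ n → 112 * n ≤ 2 ^ n := by
  intro n hn
  induction n, hn using Nat.le_induction with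
  | base => norm_num
  | succ n hn ih =>
    rw [pow_succ]
    omega

theorem level_numerics (w i k : ℕ) (hw : 32 ≤ w) (hi1 : 1 ≤ i) (hi : i + 7 ≤ w)
    (hk : k = i * 2 ^ (w - i) / (28 * w)) :
    1 ≤ k ∧ (2 ^ (28 * w)) ^ k ≤ (2 ^ w).choose (2 ^ (w - i)) ∧
      1000 * k * (2 ^ (2 * (16 * w))) ^ 3 < (2 ^ (28 * w)) ^ 4 ∧
      2 * (16 * w) * (4 * k * 2 ^ (28 * w) * 2 ^ (w - i) + k + 2 ^ (16 * w) + 2)
        ≤ 2 ^ (2 * (16 * w)) ∧
      4 * w * 2 ^ (w - i) ≤ (14 * w / i + 1) * (16 * w * k) ∧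
      (i = 1 → 5 * w * 2 ^ w ≤ 35 * w * (16 * w * k)) := by
  have hchoose := two_pow_le_choose w i (by omega)
  obtain ⟨r, hr⟩ : ∃ r, r = 2 ^ (w - i) := ⟨_, rfl⟩
  rw [← hr] at hk hchoose ⊢
  have hwpos : 0 < w := by omega
  -- size of r
  have hr7 : 128 ≤ r := by
    rw [hr]
    calc 128 = 2 ^ 7 := by norm_num
      _ ≤ 2 ^ (w - i) := Nat.pow_le_pow_right (by norm_num) (by omega)
  have hrle : r ≤ 2 ^ (w - 1) := by
    rw [hr]
    exact Nat.pow_le_pow_right (by norm_num) (by omega)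
  have h2w : 2 ^ w = 2 * 2 ^ (w - 1) := by
    rw [← pow_succ']
    congr 1
    omega
  -- the key lower bound
  have hX56 : 56 * w ≤ i * r := by
    by_cases h2 : w ≤ 2 * i
    · have h3 : i * 128 ≤ i * r := Nat.mul_le_mul_left i hr7
      omega
    · have hn : 11 ≤ w - i := by omega
      have h3 : 112 * (w - i) ≤ r := by
        rw [hr]
        exact mul_le_two_pow_aux _ hn
      have h4 : 1 * r ≤ i * r := Nat.mul_le_mul_right r hi1
      omega
  have hk_le : 28 * w * k ≤ i * r := by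
    rw [hk]
    exact Nat.mul_div_le _ _
  have hk_lt : i * r < 28 * w * (k + 1) := by
    rw [hk]
    exact Nat.lt_mul_div_succ _ (by omega)
  have hk2 : 2 ≤ k := by
    by_contra hlt
    have hk1 : k + 1 ≤ 2 := by omega
    have h5 : 28 * w * (k + 1) ≤ 28 * w * 2 := Nat.mul_le_mul_left _ hk1
    omega
  have hX_lt : i * r < 56 * w * k := by
    have h5 : 28 * w * (k + 1) ≤ 28 * w * (2 * k) := Nat.mul_le_mul_left _ (by omega)
    have h6 : 28 * w * (2 * k) = 56 * w * k := by ring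
    omega
  have hk_r : k ≤ r := by
    have h5 : i * r ≤ w * r := Nat.mul_le_mul_right r (by omega)
    have h6 : w * (28 * k) ≤ w * r := by
      calc w * (28 * k) = 28 * w * k := by ring
        _ ≤ i * r := hk_le
        _ ≤ w * r := h5
    have h7 : 28 * k ≤ r := Nat.le_of_mul_le_mul_left h6 hwpos
    omega
  have hk_h : k ≤ 2 ^ (w - 1) := hk_r.trans hrle
  have hk_w : k < 2 ^ w := by
    have : 0 < 2 ^ (w - 1) := by positivity
    omega
  refine ⟨by omega, ?_, ?_, ?_, ?_, ?_⟩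
  · rw [← pow_mul]
    exact (Nat.pow_le_pow_right (by norm_num) hk_le).trans hchoose
  · have e1 : (2 ^ (2 * (16 * w))) ^ 3 = 2 ^ (96 * w) := by
      rw [← pow_mul]
      congr 1
      ring
    have e2 : (2 ^ (28 * w)) ^ 4 = 2 ^ (16 * w) * 2 ^ (96 * w) := by
      rw [← pow_mul, ← pow_add]
      congr 1
      ring
    rw [e1, e2]
    have h1 : 1000 * k < 2 ^ (16 * w) := by
      have h3 : 1024 * 2 ^ w = 2 ^ (10 + w) := by
        rw [pow_add]
        norm_num
      have h4 : 2 ^ (10 + w) ≤ 2 ^ (16 * w) := Nat.pow_le_pow_right (by norm_num) (by omega)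
      omega
    exact Nat.mul_lt_mul_of_pos_right h1 (by positivity)
  · -- supply
    have hP : 4 * k * 2 ^ (28 * w) * r ≤ 2 ^ (30 * w) := by
      have h1 : k * r ≤ 2 ^ (w - 1) * 2 ^ (w - 1) := Nat.mul_le_mul hk_h hrle
      have h3 : 4 * (2 ^ (w - 1) * 2 ^ (w - 1)) = 2 ^ (2 * w) := by
        have : 2 ^ (2 * w) = 2 ^ w * 2 ^ w := by rw [← pow_add]; congr 1; ring
        rw [this, h2w]
        ring
      have h4 : 2 ^ (30 * w) = 2 ^ (2 * w) * 2 ^ (28 * w) := by
        rw [← pow_add]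
        congr 1
        ring
      calc 4 * k * 2 ^ (28 * w) * r = 4 * (k * r) * 2 ^ (28 * w) := by ring
        _ ≤ 4 * (2 ^ (w - 1) * 2 ^ (w - 1)) * 2 ^ (28 * w) :=
          Nat.mul_le_mul_right _ (Nat.mul_le_mul_left _ h1)
        _ = 2 ^ (30 * w) := by rw [h3, h4]
    have hQ : k + 2 ^ (16 * w) + 2 ≤ 2 ^ (30 * w) := by
      have h1 : 2 ^ w ≤ 2 ^ (16 * w) := Nat.pow_le_pow_right (by norm_num) (by omega)
      have h3 : 2 ^ 1 ≤ 2 ^ (16 * w) := Nat.pow_le_pow_right (by norm_num) (by omega)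
      have h4 : 4 * 2 ^ (16 * w) = 2 ^ (2 + 16 * w) := by
        rw [pow_add]
        norm_num
      have h5 : 2 ^ (2 + 16 * w) ≤ 2 ^ (30 * w) := Nat.pow_le_pow_right (by norm_num) (by omega)
      omega
    have h64 : 64 * w ≤ 2 ^ (2 * w) := by
      have h1 : w < 2 ^ w := Nat.lt_two_pow_self
      have h3 : 64 * 2 ^ w = 2 ^ (6 + w) := by
        rw [pow_add]
        norm_num
      have h4 : 2 ^ (6 + w) ≤ 2 ^ (2 * w) := Nat.pow_le_pow_right (by norm_num) (by omega)
      omega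
    have h32 : 2 ^ (2 * (16 * w)) = 2 ^ (2 * w) * 2 ^ (30 * w) := by
      rw [← pow_add]
      congr 1
      ring
    rw [h32]
    calc 2 * (16 * w) * (4 * k * 2 ^ (28 * w) * r + k + 2 ^ (16 * w) + 2)
        ≤ 2 * (16 * w) * (2 ^ (30 * w) + 2 ^ (30 * w)) := Nat.mul_le_mul_left _ (by omega)
      _ = 64 * w * 2 ^ (30 * w) := by ring
      _ ≤ 2 ^ (2 * w) * 2 ^ (30 * w) := Nat.mul_le_mul_right _ h64
  · -- count
    have hipos : 0 < i := hi1
    have ha : 14 * w < i * (14 * w / i + 1) := Nat.lt_mul_div_succ _ hipos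
    have h1 : 14 * w * (i * r) < (i * (14 * w / i + 1)) * (56 * w * k) :=
      Nat.mul_lt_mul'' ha hX_lt
    have h2 : i * (14 * (w * r)) < i * (56 * ((14 * w / i + 1) * (w * k))) := by
      calc i * (14 * (w * r)) = 14 * w * (i * r) := by ring
        _ < (i * (14 * w / i + 1)) * (56 * w * k) := h1
        _ = i * (56 * ((14 * w / i + 1) * (w * k))) := by ring
    have h3 : 14 * (w * r) < 56 * ((14 * w / i + 1) * (w * k)) := Nat.lt_of_mul_lt_mul_left h2
    have e1 : 4 * w * r = 4 * (w * r) := by ring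
    have e2 : (14 * w / i + 1) * (16 * w * k) = 16 * ((14 * w / i + 1) * (w * k)) := by ring
    rw [e1, e2]
    omega
  · intro hi_one
    subst hi_one
    have hr' : r < 56 * w * k := by simpa using hX_lt
    have h1 : w * r ≤ w * (56 * w * k) := Nat.mul_le_mul_left w hr'.le
    have hrr : 2 ^ (w - 1) = r := hr.symm
    rw [h2w, hrr]
    calc 5 * w * (2 * r) = 10 * (w * r) := by ring
      _ ≤ 10 * (w * (56 * w * k)) := Nat.mul_le_mul_left _ h1
      _ = 35 * w * (16 * w * k) := by ring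

end Vale.Agent.H73.D32
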