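-- Frozen copy of Vale/Agent/H41/EgyEndgame2.lean (written by helper41); kept under H73 so that the P012 hand-in
-- A_LogLogTimesLogLogLog has an import closure that no later edit elsewhere can change.
import Mathlib
import Vale.Agent.H73.EgyDeps.H80EgyEndgame

/-!
# P012 sub-lemma ENDGAME2 (real-analysis bookkeeping)

* `harmonic_floor_sum`: `∑_{j<n} (⌊14 w/(j+1)⌋ + 1) ≤ 14 w (1 + log w) + w` for `n ≤ w`.
* `endgame_lll`: `K * m * (1 + log m) ≤ C * log log b * log log log b` for `b ≥ 16`,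
  where `m = max w0 (clog 2 (clog 2 b))`.
-/

namespace Vale.Agent.H73.D41

open Finset

theorem harmonic_floor_sum (w n : ℕ) (hn : n ≤ w) :
    ((∑ j ∈ Finset.range n, (14 * w / (j + 1) + 1) : ℕ) : ℝ) ≤
      14 * (w : ℝ) * (1 + Real.log (w : ℝ)) + (w : ℝ) := by
  have hw0 : (0 : ℝ) ≤ (w : ℝ) := Nat.cast_nonneg _
  have hlogw : 0 ≤ Real.log (w : ℝ) := Real.log_natCast_nonneg w
  rcases Nat.eq_zero_or_pos n with h0 | hpos
  · subst h0
    simp only [Finset.range_zero, Finset.sum_empty, Nat.cast_zero]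
    positivity
  · have hterm : ∀ j ∈ Finset.range n,
        (((14 * w / (j + 1) + 1 : ℕ)) : ℝ) ≤ 14 * (w : ℝ) * ((j + 1 : ℕ) : ℝ)⁻¹ + 1 := by
      intro j _
      have h1 : ((14 * w / (j + 1) : ℕ) : ℝ) ≤ ((14 * w : ℕ) : ℝ) / ((j + 1 : ℕ) : ℝ) :=
        Nat.cast_div_le
      have h2 : ((14 * w : ℕ) : ℝ) / ((j + 1 : ℕ) : ℝ) = 14 * (w : ℝ) * ((j + 1 : ℕ) : ℝ)⁻¹ := by
        push_cast
        rw [div_eq_mul_inv]
      push_cast at h1 h2 ⊢
      linarith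
    have hsum : ((∑ j ∈ Finset.range n, (14 * w / (j + 1) + 1) : ℕ) : ℝ) ≤
        ∑ j ∈ Finset.range n, (14 * (w : ℝ) * ((j + 1 : ℕ) : ℝ)⁻¹ + 1) := by
      rw [Nat.cast_sum]
      exact Finset.sum_le_sum hterm
    have hharm : ((harmonic n : ℚ) : ℝ) = ∑ j ∈ Finset.range n, ((j + 1 : ℕ) : ℝ)⁻¹ := by
      unfold harmonic
      push_cast
      rfl
    have hsplit : ∑ j ∈ Finset.range n, (14 * (w : ℝ) * ((j + 1 : ℕ) : ℝ)⁻¹ + 1) =
        14 * (w : ℝ) * ((harmonic n : ℚ) : ℝ) + (n : ℝ) := by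
      rw [hharm, Finset.sum_add_distrib, ← Finset.mul_sum]
      simp
    have hH : ((harmonic n : ℚ) : ℝ) ≤ 1 + Real.log (n : ℝ) := harmonic_le_one_add_log n
    have hnw : (n : ℝ) ≤ (w : ℝ) := by exact_mod_cast hn
    have hn1 : (0 : ℝ) < (n : ℝ) := by exact_mod_cast hpos
    have hlog : Real.log (n : ℝ) ≤ Real.log (w : ℝ) := Real.log_le_log hn1 hnw
    have hH' : ((harmonic n : ℚ) : ℝ) ≤ 1 + Real.log (w : ℝ) := by linarith
    have hmul : 14 * (w : ℝ) * ((harmonic n : ℚ) : ℝ) ≤ 14 * (w : ℝ) * (1 + Real.log (w : ℝ)) :=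
      mul_le_mul_of_nonneg_left hH' (by positivity)
    linarith

/-- `log (log b) ≥ 1.0195` for `b ≥ 16`. -/
theorem loglog_ge (b : ℕ) (hb : 16 ≤ b) : (1.0195 : ℝ) ≤ Real.log (Real.log (b : ℝ)) := by
  have hl2 : (0.6931471803 : ℝ) < Real.log 2 := Real.log_two_gt_d9
  have he : Real.exp 1 < (2.7182818286 : ℝ) := Real.exp_one_lt_d9
  have hepos : (0 : ℝ) < Real.exp 1 := Real.exp_pos 1
  have h16 : (16 : ℝ) ≤ (b : ℝ) := by exact_mod_cast hb
  have hlog16 : Real.log (16 : ℝ) = 4 * Real.log 2 := by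
    have : (16 : ℝ) = 2 ^ 4 := by norm_num
    rw [this, Real.log_pow]
    norm_num
  have hlb : 4 * Real.log 2 ≤ Real.log (b : ℝ) := by
    rw [← hlog16]
    exact Real.log_le_log (by norm_num) h16
  have hpos4 : (0 : ℝ) < 4 * Real.log 2 := by linarith
  have hmono : Real.log (4 * Real.log 2) ≤ Real.log (Real.log (b : ℝ)) :=
    Real.log_le_log hpos4 hlb
  -- log (4 log 2) = 1 + log (4 log 2 / e) ≥ 2 - e / (4 log 2)
  have hdiv : Real.log (4 * Real.log 2 / Real.exp 1) = Real.log (4 * Real.log 2) - 1 := by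
    rw [Real.log_div hpos4.ne' hepos.ne', Real.log_exp]
  have htpos : (0 : ℝ) < 4 * Real.log 2 / Real.exp 1 := div_pos hpos4 hepos
  have hone : 1 - (4 * Real.log 2 / Real.exp 1)⁻¹ ≤ Real.log (4 * Real.log 2 / Real.exp 1) :=
    Real.one_sub_inv_le_log_of_pos htpos
  have hinv : (4 * Real.log 2 / Real.exp 1)⁻¹ ≤ (0.9805 : ℝ) := by
    rw [inv_div, div_le_iff₀ hpos4]
    nlinarith
  linarith

theorem endgame_lll (K w0 : ℕ) : ∃ C : ℝ, ∀ b : ℕ, 16 ≤ b →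
    (K : ℝ) * ((max w0 (Nat.clog 2 (Nat.clog 2 b)) : ℕ) : ℝ) *
        (1 + Real.log ((max w0 (Nat.clog 2 (Nat.clog 2 b)) : ℕ) : ℝ)) ≤
      C * Real.log (Real.log (b : ℝ)) * Real.log (Real.log (Real.log (b : ℝ))) := by
  refine ⟨(K : ℝ) * ((w0 : ℝ) + 4) * ((1 + Real.log ((w0 : ℝ) + 4)) / 0.019 + 1), fun b hb => ?_⟩
  have hK : (0 : ℝ) ≤ (K : ℝ) := Nat.cast_nonneg _
  have hw0 : (0 : ℝ) ≤ (w0 : ℝ) := Nat.cast_nonneg _
  set x : ℝ := Real.log (Real.log (b : ℝ)) with hx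
  have hx1 : (1.0195 : ℝ) ≤ x := loglog_ge b hb
  have hxpos : (0 : ℝ) < x := by linarith
  set y : ℝ := Real.log x with hy
  have hy1 : (0.019 : ℝ) ≤ y := by
    have h1 : 1 - x⁻¹ ≤ Real.log x := Real.one_sub_inv_le_log_of_pos hxpos
    have h2 : x⁻¹ ≤ (1.0195 : ℝ)⁻¹ := inv_anti₀ (by norm_num) hx1
    have h3 : (1.0195 : ℝ)⁻¹ ≤ 0.981 := by norm_num
    linarith
  have hypos : (0 : ℝ) < y := by linarith
  -- the natural number m
  set m : ℕ := max w0 (Nat.clog 2 (Nat.clog 2 b)) with hm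
  have hcl : (Nat.clog 2 (Nat.clog 2 b) : ℝ) ≤ 2 + 2 * |x| :=
    Vale.Agent.H73.D80.clog_clog_le b (by omega)
  rw [abs_of_pos hxpos] at hcl
  have hm_le : (m : ℝ) ≤ ((w0 : ℝ) + 4) * x := by
    have h1 : (m : ℝ) = max (w0 : ℝ) (Nat.clog 2 (Nat.clog 2 b) : ℝ) := by
      rw [hm]
      push_cast
      rfl
    rw [h1]
    apply max_le
    · nlinarith
    · nlinarith
  have hm_ge : 2 ≤ m := by
    have h4 : 4 ≤ Nat.clog 2 b := by
      have h16 : Nat.clog 2 16 = 4 := by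
        have : (16 : ℕ) = 2 ^ 4 := by norm_num
        rw [this, Nat.clog_pow 2 4 (by norm_num)]
      calc 4 = Nat.clog 2 16 := h16.symm
        _ ≤ Nat.clog 2 b := Nat.clog_mono_right 2 hb
    have h2 : 2 ≤ Nat.clog 2 (Nat.clog 2 b) := by
      have h42 : Nat.clog 2 4 = 2 := by
        have : (4 : ℕ) = 2 ^ 2 := by norm_num
        rw [this, Nat.clog_pow 2 2 (by norm_num)]
      calc 2 = Nat.clog 2 4 := h42.symm
        _ ≤ Nat.clog 2 (Nat.clog 2 b) := Nat.clog_mono_right 2 h4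
    exact le_trans h2 (le_max_right _ _)
  have hm2 : (2 : ℝ) ≤ (m : ℝ) := by exact_mod_cast hm_ge
  have hmpos : (0 : ℝ) < (m : ℝ) := by linarith
  have hlogm0 : 0 ≤ Real.log (m : ℝ) := Real.log_natCast_nonneg m
  have hw4pos : (0 : ℝ) < (w0 : ℝ) + 4 := by linarith
  have hlogm : Real.log (m : ℝ) ≤ Real.log ((w0 : ℝ) + 4) + y := by
    have h1 : Real.log (m : ℝ) ≤ Real.log (((w0 : ℝ) + 4) * x) := Real.log_le_log hmpos hm_le
    rw [Real.log_mul hw4pos.ne' hxpos.ne'] at h1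
    exact h1
  have hlogw4 : 0 ≤ Real.log ((w0 : ℝ) + 4) := Real.log_nonneg (by linarith)
  have hfac : 1 + Real.log (m : ℝ) ≤ ((1 + Real.log ((w0 : ℝ) + 4)) / 0.019 + 1) * y := by
    have h1 : 1 + Real.log ((w0 : ℝ) + 4) ≤ (1 + Real.log ((w0 : ℝ) + 4)) / 0.019 * y := by
      rw [div_mul_eq_mul_div, le_div_iff₀ (by norm_num)]
      nlinarith
    nlinarith
  have hA : (0 : ℝ) ≤ (1 + Real.log ((w0 : ℝ) + 4)) / 0.019 + 1 := by positivity
  have hprod : (m : ℝ) * (1 + Real.log (m : ℝ)) ≤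
      (((w0 : ℝ) + 4) * x) * (((1 + Real.log ((w0 : ℝ) + 4)) / 0.019 + 1) * y) := by
    apply mul_le_mul hm_le hfac (by linarith) (by positivity)
  calc (K : ℝ) * (m : ℝ) * (1 + Real.log (m : ℝ))
      = (K : ℝ) * ((m : ℝ) * (1 + Real.log (m : ℝ))) := by ring
    _ ≤ (K : ℝ) * ((((w0 : ℝ) + 4) * x) * (((1 + Real.log ((w0 : ℝ) + 4)) / 0.019 + 1) * y)) :=
        mul_le_mul_of_nonneg_left hprod hK
    _ = (K : ℝ) * ((w0 : ℝ) + 4) * ((1 + Real.log ((w0 : ℝ) + 4)) / 0.019 + 1) * x * y := by ring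

end Vale.Agent.H73.D41
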