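-- Frozen copy of Vale/Agent/H43/EgyBilinear.lean (written by helper43); kept under H73 so that the P012 hand-in
-- A_LogLogTimesLogLogLog has an import closure that no later edit elsewhere can change.
import Mathlib

/-!
Sub-lemma BILINEAR of the P012 development: a Vinogradov-type bilinear bound for additive
characters of `ZMod Q`, valid in the presence of zero divisors.
-/

namespace Vale.Agent.H73.D43

open Finset

section
variable (Q : ℕ) [NeZero Q]

/-- All fibres of multiplication by `h` over its image have the size of the kernel. -/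
lemma egy_card_fiber (h a : ZMod Q) :
    (univ.filter (fun x : ZMod Q => h * x = h * a)).card
      = (univ.filter (fun x : ZMod Q => h * x = 0)).card := by
  refine Finset.card_equiv (Equiv.subRight a) (fun x => ?_)
  simp [mul_sub, sub_eq_zero]

/-- Orthogonality of the standard additive character. -/
lemma egy_sum_char (b : ZMod Q) :
    ∑ x : ZMod Q, (ZMod.stdAddChar (x * b) : ℂ) = if b = 0 then (Q : ℂ) else 0 := by
  have h := AddChar.sum_mulShift b (ZMod.isPrimitive_stdAddChar Q)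
  simpa [ZMod.card] using h

/-- Second moment of the inner sums over a full set of frequencies. -/
lemma egy_sum_norm_sq {κ : Type*} (J : Finset κ) (β : κ → ZMod Q) (h : ZMod Q) :
    ∑ x : ZMod Q, ‖∑ j ∈ J, (ZMod.stdAddChar (h * x * β j) : ℂ)‖ ^ 2
      = (Q : ℝ) * (((J ×ˢ J).filter (fun p => h * (β p.1 - β p.2) = 0)).card : ℝ) := by
  have key : ∑ x : ZMod Q, ((‖∑ j ∈ J, (ZMod.stdAddChar (h * x * β j) : ℂ)‖ ^ 2 : ℝ) : ℂ)
      = (Q : ℂ) * (((J ×ˢ J).filter (fun p => h * (β p.1 - β p.2) = 0)).card : ℂ) := by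
    have e1 : ∀ x : ZMod Q, ((‖∑ j ∈ J, (ZMod.stdAddChar (h * x * β j) : ℂ)‖ ^ 2 : ℝ) : ℂ)
        = ∑ p ∈ J ×ˢ J, (ZMod.stdAddChar (x * (h * (β p.1 - β p.2))) : ℂ) := by
      intro x
      push_cast
      rw [← Complex.mul_conj', map_sum, Finset.sum_mul_sum, ← Finset.sum_product']
      refine Finset.sum_congr rfl (fun p _ => ?_)
      rw [← AddChar.map_neg_eq_conj, ← AddChar.map_add_eq_mul]
      congr 1
      ring
    simp_rw [e1]
    rw [Finset.sum_comm]
    simp_rw [egy_sum_char]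
    rw [Finset.sum_ite, Finset.sum_const_zero, add_zero, Finset.sum_const, nsmul_eq_mul, mul_comm]
  exact_mod_cast key

/-- Averaging over the fibres of multiplication by `h`. -/
lemma egy_fiber_sum {ι : Type*} (I : Finset ι) (α : ι → ZMod Q) (h : ZMod Q) (F : ZMod Q → ℂ) :
    ((univ.filter (fun x : ZMod Q => h * x = 0)).card : ℂ) * ∑ i ∈ I, F (h * α i)
      = ∑ x : ZMod Q, ((I.filter (fun i => h * α i = h * x)).card : ℂ) * F (h * x) := by
  have e : ∀ x : ZMod Q, ((I.filter (fun i => h * α i = h * x)).card : ℂ) * F (h * x)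
      = ∑ i ∈ I, if h * x = h * α i then F (h * α i) else 0 := by
    intro x
    rw [Finset.card_filter, Nat.cast_sum, Finset.sum_mul]
    refine Finset.sum_congr rfl (fun i _ => ?_)
    by_cases hx : h * α i = h * x
    · simp [hx]
    · have hx' : ¬ h * x = h * α i := fun e => hx e.symm
      simp [hx, hx']
  simp_rw [e]
  rw [Finset.sum_comm, Finset.mul_sum]
  refine Finset.sum_congr rfl (fun i _ => ?_)
  rw [← Finset.sum_filter, Finset.sum_const, nsmul_eq_mul, egy_card_fiber]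

/-- Second moment of the fibre counts. -/
lemma egy_sum_sq {ι : Type*} (I : Finset ι) (α : ι → ZMod Q) (h : ZMod Q) :
    ∑ x : ZMod Q, ((I.filter (fun i => h * α i = h * x)).card : ℝ) ^ 2
      = ((univ.filter (fun x : ZMod Q => h * x = 0)).card : ℝ)
        * (((I ×ˢ I).filter (fun p => h * (α p.1 - α p.2) = 0)).card : ℝ) := by
  have e : ∀ x : ZMod Q, ((I.filter (fun i => h * α i = h * x)).card : ℝ) ^ 2
      = ∑ p ∈ I ×ˢ I, if h * x = h * α p.1 ∧ h * α p.1 = h * α p.2 then (1 : ℝ) else 0 := by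
    intro x
    rw [sq, Finset.card_filter, Nat.cast_sum, Finset.sum_mul_sum, ← Finset.sum_product']
    refine Finset.sum_congr rfl (fun p _ => ?_)
    by_cases h1 : h * α p.1 = h * x
    · by_cases h2 : h * α p.2 = h * x
      · have h3 : h * α p.1 = h * α p.2 := h1.trans h2.symm
        simp [h1, h2]
      · have h3 : ¬ h * x = h * α p.2 := fun e => h2 e.symm
        simp [h1, h2, h3]
    · have h3 : ¬ h * x = h * α p.1 := fun e => h1 e.symm
      simp [h1, h3]
  simp_rw [e]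
  rw [Finset.sum_comm]
  have e2 : ∀ p : ι × ι,
      (∑ x : ZMod Q, if h * x = h * α p.1 ∧ h * α p.1 = h * α p.2 then (1 : ℝ) else 0)
      = if h * (α p.1 - α p.2) = 0 then
          ((univ.filter (fun x : ZMod Q => h * x = 0)).card : ℝ) else 0 := by
    intro p
    by_cases hp : h * α p.1 = h * α p.2
    · have hp' : h * (α p.1 - α p.2) = 0 := by rw [mul_sub, hp, sub_self]
      rw [if_pos hp']
      have : ∀ x : ZMod Q, (h * x = h * α p.1 ∧ h * α p.1 = h * α p.2) ↔ h * x = h * α p.1 :=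
        fun x => ⟨fun hx => hx.1, fun hx => ⟨hx, hp⟩⟩
      simp_rw [this]
      rw [← Finset.sum_filter, Finset.sum_const, nsmul_eq_mul, mul_one, egy_card_fiber]
    · have hp' : ¬ h * (α p.1 - α p.2) = 0 := by
        rw [mul_sub, sub_eq_zero]
        exact hp
      rw [if_neg hp']
      refine Finset.sum_eq_zero (fun x _ => ?_)
      rw [if_neg]
      exact fun hx => hp hx.2
  simp_rw [e2]
  rw [← Finset.sum_filter, Finset.sum_const, nsmul_eq_mul, mul_comm]

end

theorem bilinear_bound (Q : ℕ) [NeZero Q] {ι κ : Type*} (I : Finset ι) (J : Finset κ)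
    (α : ι → ZMod Q) (β : κ → ZMod Q) (h : ZMod Q) :
    ((Finset.univ.filter (fun x : ZMod Q => h * x = 0)).card : ℝ)
        * ‖∑ i ∈ I, ∑ j ∈ J, (ZMod.stdAddChar (h * α i * β j) : ℂ)‖ ^ 2
      ≤ (Q : ℝ) * (((I ×ˢ I).filter (fun p => h * (α p.1 - α p.2) = 0)).card : ℝ)
        * (((J ×ˢ J).filter (fun p => h * (β p.1 - β p.2) = 0)).card : ℝ) := by
  set n : ℕ := (Finset.univ.filter (fun x : ZMod Q => h * x = 0)).card with hn
  set S : ℂ := ∑ i ∈ I, ∑ j ∈ J, (ZMod.stdAddChar (h * α i * β j) : ℂ) with hS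
  set Eα : ℕ := ((I ×ˢ I).filter (fun p => h * (α p.1 - α p.2) = 0)).card with hEα
  set Eβ : ℕ := ((J ×ˢ J).filter (fun p => h * (β p.1 - β p.2) = 0)).card with hEβ
  have npos : 0 < n := Finset.card_pos.mpr ⟨0, by simp⟩
  have npos' : (0 : ℝ) < n := by exact_mod_cast npos
  have h1 : (n : ℂ) * S = ∑ x : ZMod Q, ((I.filter (fun i => h * α i = h * x)).card : ℂ)
      * (∑ j ∈ J, (ZMod.stdAddChar (h * x * β j) : ℂ)) :=
    egy_fiber_sum Q I α h (fun y => ∑ j ∈ J, (ZMod.stdAddChar (y * β j) : ℂ))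
  have h2 : (n : ℝ) * ‖S‖ ≤ ∑ x : ZMod Q, ((I.filter (fun i => h * α i = h * x)).card : ℝ)
      * ‖∑ j ∈ J, (ZMod.stdAddChar (h * x * β j) : ℂ)‖ := by
    have e : ‖(n : ℂ) * S‖ = (n : ℝ) * ‖S‖ := by rw [norm_mul, Complex.norm_natCast]
    rw [← e, h1]
    refine (norm_sum_le _ _).trans (le_of_eq ?_)
    refine Finset.sum_congr rfl (fun x _ => ?_)
    rw [norm_mul, Complex.norm_natCast]
  have h3 : ((n : ℝ) * ‖S‖) ^ 2 ≤ ((n : ℝ) * Eα) * ((Q : ℝ) * Eβ) := by
    calc ((n : ℝ) * ‖S‖) ^ 2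
        ≤ (∑ x : ZMod Q, ((I.filter (fun i => h * α i = h * x)).card : ℝ)
            * ‖∑ j ∈ J, (ZMod.stdAddChar (h * x * β j) : ℂ)‖) ^ 2 :=
          pow_le_pow_left₀ (by positivity) h2 2
      _ ≤ (∑ x : ZMod Q, ((I.filter (fun i => h * α i = h * x)).card : ℝ) ^ 2)
            * ∑ x : ZMod Q, ‖∑ j ∈ J, (ZMod.stdAddChar (h * x * β j) : ℂ)‖ ^ 2 :=
          Finset.sum_mul_sq_le_sq_mul_sq _ _ _
      _ = ((n : ℝ) * Eα) * ((Q : ℝ) * Eβ) := by
          rw [egy_sum_sq, egy_sum_norm_sq]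
  have h4 : (n : ℝ) * ((n : ℝ) * ‖S‖ ^ 2) ≤ (n : ℝ) * ((Q : ℝ) * Eα * Eβ) := by
    calc (n : ℝ) * ((n : ℝ) * ‖S‖ ^ 2) = ((n : ℝ) * ‖S‖) ^ 2 := by ring
      _ ≤ ((n : ℝ) * Eα) * ((Q : ℝ) * Eβ) := h3
      _ = (n : ℝ) * ((Q : ℝ) * Eα * Eβ) := by ring
  exact le_of_mul_le_mul_left h4 npos'

end Vale.Agent.H73.D43
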